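import Mathlib

/-! # Row 110: quotients of unital C⋆-algebras (copied from `R93/Quot.lean`, with norm lifting). -/

set_option autoImplicit false

namespace Crest.Agent.R110

open Filter Topology
open scoped BoundedContinuousFunction CStarAlgebra

universe u v

namespace Quot

variable {L : Type u} [CStarAlgebra L]

theorem exists_unit (J : Ideal L) {j : L} (hj : j ∈ J) {ε : ℝ} (hε : 0 < ε) :
    ∃ u : L, IsSelfAdjoint u ∧ ‖u‖ ≤ 1 ∧ 1 - u ∈ J ∧ ‖j * u‖ ≤ ε := by
  set η := ε ^ 2 with hη
  have hη0 : 0 < η := by positivity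
  set h := star j * j with hh
  have hsa : IsSelfAdjoint h := IsSelfAdjoint.star_mul_self j
  have hpos : ∀ t : ℝ, 0 < η ^ 2 + t ^ 2 := fun t => by positivity
  let f : ℝ → ℝ := fun t => η ^ 2 / (η ^ 2 + t ^ 2)
  let g : ℝ → ℝ := fun t => t / (η ^ 2 + t ^ 2)
  have hf : Continuous f := continuous_const.div (by fun_prop) fun t => (hpos t).ne'
  have hg : Continuous g := continuous_id.div (by fun_prop) fun t => (hpos t).ne'
  have hf0 : ∀ t, 0 ≤ f t := fun t => by have := hpos t; positivity
  have hf1 : ∀ t, f t ≤ 1 := fun t => (div_le_one (hpos t)).2 (by nlinarith [sq_nonneg t])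
  have hus : IsSelfAdjoint (cfc f h) := cfc_predicate f h
  refine ⟨cfc f h, hus, norm_cfc_le zero_le_one fun t _ => ?_, ?_, ?_⟩
  · rw [Real.norm_eq_abs, abs_of_nonneg (hf0 t)]; exact hf1 t
  · have h1 : 1 - cfc f h = cfc g h * h := by
      have h2 : cfc g h * h = cfc (fun t => g t * t) h := by
        rw [cfc_mul g (fun t => t) h hg.continuousOn continuousOn_id, cfc_id' ℝ h]
      rw [h2, ← cfc_one (R := ℝ) h, ← cfc_sub 1 f h continuousOn_const hf.continuousOn]
      refine cfc_congr fun t _ => ?_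
      have := (hpos t).ne'
      simp only [f, g, Pi.one_apply]
      field_simp
      ring
    rw [h1]
    exact J.mul_mem_left _ (J.mul_mem_left _ hj)
  · have h2 : star (j * cfc f h) * (j * cfc f h) = cfc (fun t => f t * t * f t) h := by
      rw [cfc_mul (fun t => f t * t) f h (hf.mul continuous_id).continuousOn hf.continuousOn,
        cfc_mul f (fun t => t) h hf.continuousOn continuousOn_id, cfc_id' ℝ h, star_mul,
        hus.star_eq, hh]
      simp only [mul_assoc]
    have h3 : ‖cfc (fun t => f t * t * f t) h‖ ≤ η := by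
      refine norm_cfc_le hη0.le fun t _ => ?_
      rw [Real.norm_eq_abs, abs_mul, abs_mul, abs_of_nonneg (hf0 t)]
      have h4 : f t * |t| ≤ η := by
        simp only [f]
        rw [div_mul_eq_mul_div, div_le_iff₀ (hpos t), ← sq_abs t]
        nlinarith [sq_nonneg (|t| - η), abs_nonneg t, mul_pos hη0 hη0, sq_nonneg (|t|),
          mul_nonneg hη0.le (sq_nonneg (|t| - η)), mul_nonneg hη0.le (sq_nonneg (|t|))]
      exact (mul_le_of_le_one_right (mul_nonneg (hf0 t) (abs_nonneg t)) (hf1 t)).trans h4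
    rw [← h2, CStarRing.norm_star_mul_self, hη, ← sq] at h3
    exact (abs_le_of_sq_le_sq' h3 hε.le).2

/-- a closed two-sided ⋆-ideal -/
structure CI (L : Type u) [CStarAlgebra L] where
  J : Ideal L
  two : J.IsTwoSided
  closed : IsClosed (J : Set L)
  st : ∀ x ∈ J, star x ∈ J

variable (I : CI L)

instance : I.J.IsTwoSided := I.two

instance : IsClosed (I.J : Set L) := I.closed

/-- the quotient -/
def Q : Type u := L ⧸ I.J

theorem rep (x : L ⧸ I.J) {ε : ℝ} (hε : 0 < ε) :
    ∃ m : L, Ideal.Quotient.mk I.J m = x ∧ ‖m‖ < ‖x‖ + ε :=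
  Submodule.Quotient.norm_mk_lt x hε

theorem mk_le (m : L) : ‖Ideal.Quotient.mk I.J m‖ ≤ ‖m‖ := Submodule.Quotient.norm_mk_le _ m

theorem le_of_eps {a b c : ℝ} (h : ∀ ε : ℝ, 0 < ε → a ≤ (b + ε) * (c + ε)) : a ≤ b * c := by
  have h1 : Tendsto (fun ε : ℝ => (b + ε) * (c + ε)) (𝓝[>] 0) (𝓝 ((b + 0) * (c + 0))) :=
    (Continuous.tendsto (by fun_prop) 0).mono_left nhdsWithin_le_nhds
  rw [add_zero, add_zero] at h1
  exact ge_of_tendsto h1 (eventually_nhdsWithin_of_forall h)

noncomputable instance : NormedRing (Q I) :=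
  { Ideal.Quotient.ring I.J, Submodule.Quotient.normedAddCommGroup I.J with
    dist_eq := (Submodule.Quotient.normedAddCommGroup I.J).dist_eq
    norm_mul_le := fun x y => le_of_eps fun ε hε => by
      obtain ⟨a, rfl, ha⟩ := rep I x hε
      obtain ⟨b, rfl, hb⟩ := rep I y hε
      exact (mk_le I (a * b)).trans ((norm_mul_le a b).trans
        (mul_le_mul ha.le hb.le (norm_nonneg _) ((norm_nonneg _).trans ha.le))) }

noncomputable instance : NormedAlgebra ℂ (Q I) :=
  { (inferInstance : Algebra ℂ (L ⧸ I.J)) with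
    norm_smul_le := fun c x => le_of_eps fun ε hε => by
      obtain ⟨a, rfl, ha⟩ := rep I x hε
      exact (mk_le I (c • a)).trans ((norm_smul_le c a).trans
        (mul_le_mul (le_add_of_nonneg_right hε.le) ha.le (norm_nonneg _) (by positivity))) }

instance : CompleteSpace (Q I) := Submodule.Quotient.completeSpace I.J

/-- the quotient map -/
noncomputable def mk : L →ₐ[ℂ] Q I := Ideal.Quotient.mkₐ ℂ I.J

theorem mk_surj : Function.Surjective (mk I) := Ideal.Quotient.mk_surjective

noncomputable instance : Star (Q I) :=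
  ⟨Quotient.map' star fun x y h => by
    rw [Submodule.quotientRel_def] at h ⊢
    rw [← star_sub]
    exact I.st _ h⟩

theorem star_mk (x : L) : star (mk I x) = mk I (star x) := rfl

noncomputable instance : StarRing (Q I) where
  star_involutive x := by
    obtain ⟨x, rfl⟩ := mk_surj I x
    rw [star_mk, star_mk, star_star]
  star_mul x y := by
    obtain ⟨x, rfl⟩ := mk_surj I x
    obtain ⟨y, rfl⟩ := mk_surj I y
    rw [← map_mul, star_mk, star_mk, star_mk, star_mul, map_mul]
  star_add x y := by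
    obtain ⟨x, rfl⟩ := mk_surj I x
    obtain ⟨y, rfl⟩ := mk_surj I y
    rw [← map_add, star_mk, star_mk, star_mk, star_add, map_add]

theorem mk_eq_zero (x : L) : mk I x = 0 ↔ x ∈ I.J := Ideal.Quotient.eq_zero_iff_mem

theorem norm_mk_le (x : L) : ‖mk I x‖ ≤ ‖x‖ := mk_le I x

instance : CStarRing (Q I) where
  norm_mul_self_le x := by
    obtain ⟨x, rfl⟩ := mk_surj I x
    rw [star_mk, ← map_mul]
    refine le_of_forall_pos_le_add fun ε hε => ?_
    obtain ⟨m, hm, hlt⟩ := rep I (mk I (star x * x)) (half_pos hε)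
    have hj : m - star x * x ∈ I.J := (Ideal.Quotient.eq (I := I.J)).1 hm
    obtain ⟨u, hu, hu1, huJ, hju⟩ := exists_unit I.J hj (half_pos hε)
    have h1 : mk I x = mk I (x * u) := by
      rw [← sub_eq_zero, ← map_sub, mk_eq_zero]
      have : x - x * u = x * (1 - u) := by rw [mul_sub, mul_one]
      rw [this]
      exact I.J.mul_mem_left _ huJ
    have h2 : ‖mk I x‖ ≤ ‖x * u‖ := h1 ▸ norm_mk_le I (x * u)
    have h3 : star (x * u) * (x * u) = u * (m * u) - u * ((m - star x * x) * u) := by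
      rw [star_mul, hu.star_eq]
      noncomm_ring
    have h4 : ‖u * (m * u)‖ ≤ ‖m‖ :=
      (norm_mul_le _ _).trans ((mul_le_of_le_one_left (norm_nonneg _) hu1).trans
        ((norm_mul_le _ _).trans (mul_le_of_le_one_right (norm_nonneg _) hu1)))
    have h5 : ‖u * ((m - star x * x) * u)‖ ≤ ε / 2 :=
      (norm_mul_le _ _).trans ((mul_le_of_le_one_left (norm_nonneg _) hu1).trans hju)
    have h6 : ‖x * u‖ * ‖x * u‖ ≤ ‖m‖ + ε / 2 := by
      rw [← CStarRing.norm_star_mul_self, h3]
      exact (norm_sub_le _ _).trans (add_le_add h4 h5)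
    have h7 := mul_le_mul h2 h2 (norm_nonneg _) (norm_nonneg _)
    have h8 : ‖m‖ < ‖mk I (star x * x)‖ + ε / 2 := hlt
    linarith

instance : StarModule ℂ (Q I) where
  star_smul c x := by
    obtain ⟨x, rfl⟩ := mk_surj I x
    rw [← map_smul, star_mk, star_mk, star_smul, map_smul]

noncomputable instance : CStarAlgebra (Q I) :=
  { (inferInstance : NormedRing (Q I)), (inferInstance : StarRing (Q I)),
    (inferInstance : CompleteSpace (Q I)), (inferInstance : CStarRing (Q I)),
    (inferInstance : NormedAlgebra ℂ (Q I)), (inferInstance : StarModule ℂ (Q I)) with }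

end Quot

theorem exists_quot {L : Type u} [CStarAlgebra L] (J : Ideal L) [J.IsTwoSided]
    (hc : IsClosed (J : Set L)) (hs : ∀ x ∈ J, star x ∈ J) :
    ∃ (D : Type u) (_ : CStarAlgebra D) (π : L →⋆ₐ[ℂ] D), Function.Surjective π ∧
      (∀ x, π x = 0 ↔ x ∈ J) ∧ ∀ x δ, ‖π x‖ < δ → ∃ j ∈ J, ‖x - j‖ < δ := by
  let I : Quot.CI L := ⟨J, inferInstance, hc, hs⟩
  refine ⟨Quot.Q I, inferInstance, { Quot.mk I with map_star' := fun x => (Quot.star_mk I x).symm },
    Quot.mk_surj I, Quot.mk_eq_zero I, fun x δ h => ?_⟩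
  obtain ⟨m, hm, hlt⟩ := Submodule.Quotient.norm_mk_lt (S := J) (Ideal.Quotient.mk J x)
    (ε := δ - ‖Quot.mk I x‖) (sub_pos.2 h)
  refine ⟨x - m, ?_, ?_⟩
  · have : Ideal.Quotient.mk J x = Ideal.Quotient.mk J m := hm.symm
    exact Ideal.Quotient.eq.1 this
  · have e : x - (x - m) = m := by abel
    rw [e]
    have : ‖(Ideal.Quotient.mk J x : L ⧸ J)‖ = ‖Quot.mk I x‖ := rfl
    linarith

end Crest.Agent.R110
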